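import Vale.Agent.P013.Main

/-!
Jacobsthal's conjecture, with a power saving, for every modulus that misses a positive proportion
of the primes in some power range below `k`.
-/

namespace Vale.Agent.Results.P013.MissingPrimes

theorem result (θ ε : ℝ) (hθ : 0 < θ) (hε : 0 < ε) : ∃ δ C : ℝ, 0 < δ ∧
    ∀ n : ℕ, 2 ≤ n → ε ≤ ∑ p ∈ (Nat.primesLE n.primeFactors.card).filter (fun p : ℕ =>
      (n.primeFactors.card : ℝ) ^ θ ≤ p ∧ ¬ p ∣ n), 1 / (p:ℝ) →
    ∀ x : ℤ, ∃ m : ℤ, x ≤ m ∧ (m:ℝ) < x + C * (n.primeFactors.card : ℝ) ^ (2 - δ) ∧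
      IsCoprime m (n:ℤ) :=
  Vale.Agent.P013.jacobsthal_deficit hθ hε

end Vale.Agent.Results.P013.MissingPrimes
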