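import Vale.Agent.P013.Thin

/-!
Vaughan's exponent for moduli whose prime factors are sparse between `k^a` and `k`.
-/

namespace Vale.Agent.Results.P013.SparseUpperRange

theorem result (a ε : ℝ) (ha : 0 < a) (ha1 : a ≤ 1) (hε : 0 < ε) : ∃ c C : ℝ, 0 < c ∧
    ∀ n : ℕ, 2 ≤ n → ∑ p ∈ n.primeFactors.filter (fun p : ℕ =>
      (n.primeFactors.card : ℝ) ^ a < p ∧ p ≤ n.primeFactors.card), 1 / (p:ℝ) ≤ c →
    ∀ x : ℤ, ∃ m : ℤ, x ≤ m ∧ (m:ℝ) < x + C * (n.primeFactors.card : ℝ) ^ (max 1 (2 * a) + ε) ∧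
      IsCoprime m (n:ℤ) :=
  Vale.Agent.P013.jacobsthal_thin ha ha1 hε

end Vale.Agent.Results.P013.SparseUpperRange
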